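import Vale.Agent.P196.Defs
import Mathlib

/-!
Amenability (Foelner) of commutative groups, of extensions and of central extensions.
-/

namespace Vale.Agent.P196.H697

open Vale.Agent.P196

lemma card_symmDiff_image {G : Type*} [Group G] [DecidableEq G] (g : G) (D : Finset G) :
    (symmDiff (D.image (fun x => g * x)) D).card = 2 * ((D.image (fun x => g * x)) \ D).card := by
  have hc : (D.image (fun x => g * x)).card = D.card :=
    Finset.card_image_of_injective _ (mul_right_injective g)
  have h2 : (D \ (D.image (fun x => g * x))).card = ((D.image (fun x => g * x)) \ D).card := by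
    have e1 := Finset.card_sdiff_add_card_inter D (D.image (fun x => g * x))
    have e2 := Finset.card_sdiff_add_card_inter (D.image (fun x => g * x)) D
    rw [Finset.inter_comm] at e2
    omega
  have h3 : symmDiff (D.image (fun x => g * x)) D =
      ((D.image (fun x => g * x)) \ D) ∪ (D \ (D.image (fun x => g * x))) := rfl
  rw [h3, Finset.card_union_of_disjoint, h2]
  · omega
  · exact Finset.disjoint_left.2 fun x hx hx2 =>
      (Finset.mem_sdiff.1 hx).2 (Finset.mem_sdiff.1 hx2).1

open Classical in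
/-- The one-sided form of the Foelner condition. -/
theorem isAmenable_iff {G : Type*} [Group G] :
    IsAmenable G ↔ ∀ (K : Finset G) (ε : ℝ), 0 < ε → ∃ D : Finset G, D.Nonempty ∧
      ∀ g ∈ K, (((D.image (fun x => g * x)) \ D).card : ℝ) < ε * D.card := by
  constructor
  · intro h K ε hε
    obtain ⟨D, hD, hF⟩ := h K (2 * ε) (by positivity)
    refine ⟨D, hD, fun g hg => ?_⟩
    have h1 := hF g hg
    rw [card_symmDiff_image] at h1
    push_cast at h1
    linarith
  · intro h K ε hε
    obtain ⟨D, hD, hF⟩ := h K (ε / 2) (by positivity)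
    refine ⟨D, hD, fun g hg => ?_⟩
    have h1 := hF g hg
    rw [card_symmDiff_image]
    push_cast
    linarith

open Classical in
/-- Commutative groups are amenable. -/
theorem isAmenable_of_commGroup (G : Type*) [CommGroup G] : IsAmenable G := by
  rw [isAmenable_iff]
  intro S ε hε
  -- the boxes
  let box : ℕ → Finset G := fun n =>
    (S.pi (fun _ => Finset.range n)).image (fun a => ∏ s ∈ S.attach, (s : G) ^ (a s.1 s.2))
  have hcard : ∀ n, (box n).card ≤ n ^ S.card := by
    intro n
    refine Finset.card_image_le.trans ?_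
    rw [Finset.card_pi]
    simp
  have hmono : ∀ n, box n ⊆ box (n + 1) := by
    intro n
    apply Finset.image_subset_image
    intro a ha
    rw [Finset.mem_pi] at ha ⊢
    intro s hs
    have := Finset.mem_range.1 (ha s hs)
    exact Finset.mem_range.2 (by omega)
  have hmul : ∀ n, ∀ g ∈ S, (box n).image (fun x => g * x) ⊆ box (n + 1) := by
    intro n g hg x hx
    obtain ⟨y, hy, rfl⟩ := Finset.mem_image.1 hx
    obtain ⟨a, ha, rfl⟩ := Finset.mem_image.1 hy
    rw [Finset.mem_pi] at ha
    refine Finset.mem_image.2 ⟨fun s hs => if s = g then a s hs + 1 else a s hs, ?_, ?_⟩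
    · rw [Finset.mem_pi]
      intro s hs
      have := Finset.mem_range.1 (ha s hs)
      rw [Finset.mem_range]
      split_ifs <;> omega
    · have h1 : ∀ s ∈ S.attach, (s : G) ^ (if (s : G) = g then a s.1 s.2 + 1 else a s.1 s.2)
          = (if s = ⟨g, hg⟩ then g else 1) * (s : G) ^ (a s.1 s.2) := by
        intro s _
        by_cases h : (s : G) = g
        · have h2 : s = ⟨g, hg⟩ := Subtype.ext h
          rw [if_pos h, if_pos h2, pow_succ, mul_comm]
          exact congrArg (fun t => t * _) h
        · have h2 : ¬ s = ⟨g, hg⟩ := fun h3 => h (by rw [h3])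
          rw [if_neg h, if_neg h2, one_mul]
      rw [Finset.prod_congr rfl h1, Finset.prod_mul_distrib, Finset.prod_ite_eq',
        if_pos (Finset.mem_attach _ _)]
  have hne : ∀ n, 1 ≤ n → (box n).Nonempty := by
    intro n hn
    refine Finset.Nonempty.image ?_ _
    refine ⟨fun _ _ => 0, ?_⟩
    rw [Finset.mem_pi]
    intro s _
    exact Finset.mem_range.2 (by omega)
  -- polynomial growth gives a scale with small boundary
  obtain ⟨n, hn, hsmall⟩ : ∃ n, 1 ≤ n ∧ ((box (n + 1)).card : ℝ) < (1 + ε) * (box n).card := by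
    by_contra hcon
    push Not at hcon
    have hgrow : ∀ n : ℕ, (1 + ε) ^ n ≤ ((box (n + 1)).card : ℝ) := by
      intro n
      induction n with
      | zero =>
        have := Finset.card_pos.2 (hne 1 le_rfl)
        simp only [pow_zero, zero_add]
        exact_mod_cast this
      | succ n ih =>
        have h1 := hcon (n + 1) (by omega)
        rw [pow_succ]
        calc (1 + ε) ^ n * (1 + ε) ≤ ((box (n + 1)).card : ℝ) * (1 + ε) :=
              mul_le_mul_of_nonneg_right ih (by positivity)
          _ = (1 + ε) * ((box (n + 1)).card : ℝ) := by ring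
          _ ≤ _ := h1
    have hlim := tendsto_pow_const_div_const_pow_of_one_lt S.card
      (show (1 : ℝ) < 1 + ε by linarith)
    have hev := (hlim.comp (Filter.tendsto_add_atTop_nat 1)).eventually
      (gt_mem_nhds (show (0 : ℝ) < 1 / (1 + ε) by positivity))
    obtain ⟨n, hn⟩ := hev.exists
    simp only [Function.comp] at hn
    have h1 := hgrow n
    have h2 : ((box (n + 1)).card : ℝ) ≤ ((n + 1 : ℕ) : ℝ) ^ S.card := by
      exact_mod_cast hcard (n + 1)
    have h3 : (0 : ℝ) < (1 + ε) ^ (n + 1) := by positivity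
    rw [div_lt_div_iff₀ h3 (by positivity)] at hn
    rw [pow_succ] at hn
    have h4 : ((n + 1 : ℕ) : ℝ) ^ S.card < (1 + ε) ^ n := by
      have h5 : (0 : ℝ) < 1 + ε := by positivity
      have h6 : ((n + 1 : ℕ) : ℝ) ^ S.card * (1 + ε) < (1 + ε) ^ n * (1 + ε) := by linarith
      exact lt_of_mul_lt_mul_right h6 h5.le
    linarith
  refine ⟨box n, hne n hn, fun g hg => ?_⟩
  have h1 : (box n).image (fun x => g * x) \ box n ⊆ box (n + 1) \ box n :=
    Finset.sdiff_subset_sdiff (hmul n g hg) le_rfl
  have h2 : (box (n + 1) \ box n).card = (box (n + 1)).card - (box n).card :=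
    Finset.card_sdiff_of_subset (hmono n)
  have h3 := Finset.card_le_card h1
  have h4 := Finset.card_le_card (hmono n)
  have h5 : (((box n).image (fun x => g * x) \ box n).card : ℝ)
      ≤ (box (n + 1)).card - (box n).card := by
    rw [← Nat.cast_sub h4]
    exact_mod_cast h3.trans h2.le
  linarith

/-- Groups with commuting elements are amenable. -/
theorem isAmenable_of_comm (G : Type*) [Group G] (hc : ∀ a b : G, a * b = b * a) :
    IsAmenable G := by
  let _ : CommGroup G := { (inferInstance : Group G) with mul_comm := hc }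
  exact isAmenable_of_commGroup G

open Classical in
/-- The size of the boundary of `D` in the direction `g`. -/
noncomputable def bd {G : Type*} [Group G] (g : G) (D : Finset G) : ℕ :=
  (D.filter (fun x => g * x ∉ D)).card

lemma bd_eq {G : Type*} [Group G] (g : G) (D : Finset G) [DecidablePred fun x => g * x ∉ D] :
    bd g D = (D.filter (fun x => g * x ∉ D)).card := by
  unfold bd
  congr

open Classical in
lemma card_sdiff_eq_bd {G : Type*} [Group G] (g : G) (D : Finset G) :
    ((D.image (fun x => g * x)) \ D).card = bd g D := by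
  rw [bd, ← Finset.card_image_of_injective (D.filter (fun y => g * y ∉ D))
    (mul_right_injective g)]
  congr 1
  ext z
  simp only [Finset.mem_image, Finset.mem_filter, Finset.mem_sdiff]
  constructor
  · rintro ⟨⟨y, hy, rfl⟩, hn⟩
    exact ⟨y, ⟨hy, hn⟩, rfl⟩
  · rintro ⟨y, ⟨hy, hn⟩, rfl⟩
    exact ⟨⟨y, hy, rfl⟩, hn⟩

/-- The boundary form of the Foelner condition. -/
theorem isAmenable_iff_bd {G : Type*} [Group G] :
    IsAmenable G ↔ ∀ (K : Finset G) (ε : ℝ), 0 < ε → ∃ D : Finset G, D.Nonempty ∧
      ∀ g ∈ K, (bd g D : ℝ) < ε * D.card := by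
  rw [isAmenable_iff]
  simp only [card_sdiff_eq_bd]

/-- Extensions of amenable groups by amenable groups are amenable. -/
theorem isAmenable_of_ext {E : Type*} [Group E] (K : Subgroup E) [K.Normal]
    (hK : IsAmenable K) (h : IsAmenable (E ⧸ K)) : IsAmenable E := by
  classical
  rw [isAmenable_iff_bd] at hK h ⊢
  intro S ε hε
  obtain ⟨A, hA, hF⟩ := h (S.image (fun g : E => (g : E ⧸ K))) (ε / 2) (by positivity)
  let s : E ⧸ K → E := Quotient.out
  have hs : ∀ y : E ⧸ K, ((s y : E) : E ⧸ K) = y := fun y => Quotient.out_eq' y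
  have hmem : ∀ (g : E) (y : E ⧸ K), (s ((g : E ⧸ K) * y))⁻¹ * (g * s y) ∈ K := by
    intro g y
    rw [← QuotientGroup.eq, hs, QuotientGroup.mk_mul, hs]
  obtain ⟨c, hc⟩ : ∃ c : E → E ⧸ K → K, ∀ (g : E) (y : E ⧸ K),
      g * s y = s ((g : E ⧸ K) * y) * (c g y : E) := by
    refine ⟨fun g y => ⟨_, hmem g y⟩, fun g y => ?_⟩
    simp only
    group
  obtain ⟨Λ, hΛ, hFΛ⟩ := hK ((S ×ˢ A).image (fun p => c p.1 p.2)) (ε / 2) (by positivity)
  let D : Finset E := (A ×ˢ Λ).image (fun p : (E ⧸ K) × K => s p.1 * (p.2 : E))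
  have hinj : Set.InjOn (fun p : (E ⧸ K) × K => s p.1 * (p.2 : E))
      (A ×ˢ Λ : Finset ((E ⧸ K) × K)) := by
    rintro ⟨y, l⟩ _ ⟨y', l'⟩ _ heq
    simp only at heq
    have hy : y = y' := by
      have h1 : ((s y * (l : E) : E) : E ⧸ K) = y := by
        rw [QuotientGroup.mk_mul, hs, (QuotientGroup.eq_one_iff (l : E)).2 l.2, mul_one]
      have h2 : ((s y' * (l' : E) : E) : E ⧸ K) = y' := by
        rw [QuotientGroup.mk_mul, hs, (QuotientGroup.eq_one_iff (l' : E)).2 l'.2, mul_one]
      rw [← h1, ← h2, heq]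
    subst hy
    have : l = l' := Subtype.ext (mul_left_cancel heq)
    rw [this]
  have hDcard : D.card = A.card * Λ.card := by
    rw [Finset.card_image_of_injOn hinj, Finset.card_product]
  refine ⟨D, (hA.product hΛ).image _, fun g hg => ?_⟩
  have hsub : D.filter (fun x => g * x ∉ D) ⊆
      (((A.filter (fun y => (g : E ⧸ K) * y ∉ A)) ×ˢ Λ).image
        (fun p : (E ⧸ K) × K => s p.1 * (p.2 : E))) ∪
      A.biUnion (fun y => (Λ.filter (fun l : K => c g y * l ∉ Λ)).image
        (fun l : K => s y * (l : E))) := by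
    intro x hx
    rw [Finset.mem_filter] at hx
    obtain ⟨hd, hnot⟩ := hx
    obtain ⟨⟨y, l⟩, hyl, rfl⟩ := Finset.mem_image.1 hd
    rw [Finset.mem_product] at hyl
    rw [Finset.mem_union]
    by_cases hgy : (g : E ⧸ K) * y ∈ A
    · right
      refine Finset.mem_biUnion.2 ⟨y, hyl.1, ?_⟩
      refine Finset.mem_image.2 ⟨l, Finset.mem_filter.2 ⟨hyl.2, ?_⟩, rfl⟩
      intro hl
      apply hnot
      refine Finset.mem_image.2 ⟨((g : E ⧸ K) * y, c g y * l), ?_, ?_⟩
      · exact Finset.mem_product.2 ⟨hgy, hl⟩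
      · change s ((g : E ⧸ K) * y) * ((c g y * l : K) : E) = g * (s y * (l : E))
        rw [← mul_assoc g, hc, Subgroup.coe_mul, mul_assoc]
    · left
      refine Finset.mem_image.2 ⟨(y, l), ?_, rfl⟩
      exact Finset.mem_product.2 ⟨Finset.mem_filter.2 ⟨hyl.1, hgy⟩, hyl.2⟩
  have h2 : bd g D ≤ bd (g : E ⧸ K) A * Λ.card + ∑ y ∈ A, bd (c g y) Λ := by
    rw [bd_eq g D, bd_eq (g : E ⧸ K) A]
    refine (Finset.card_le_card hsub).trans ((Finset.card_union_le _ _).trans ?_)
    refine Nat.add_le_add ?_ ?_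
    · refine Finset.card_image_le.trans ?_
      rw [Finset.card_product]
    · refine Finset.card_biUnion_le.trans (Finset.sum_le_sum fun y _ => ?_)
      rw [bd_eq]
      exact Finset.card_image_le
  have hΛpos : (0 : ℝ) < Λ.card := by exact_mod_cast Finset.card_pos.2 hΛ
  have h4 : (bd (g : E ⧸ K) A : ℝ) < ε / 2 * A.card := hF _ (Finset.mem_image_of_mem _ hg)
  have h6 : ∑ y ∈ A, (bd (c g y) Λ : ℝ) ≤ A.card * (ε / 2 * Λ.card) := by
    rw [← nsmul_eq_mul, ← Finset.sum_const]
    refine Finset.sum_le_sum fun y hy => (hFΛ (c g y) ?_).le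
    exact Finset.mem_image.2 ⟨(g, y), Finset.mem_product.2 ⟨hg, hy⟩, rfl⟩
  have h8 : (bd (g : E ⧸ K) A : ℝ) * Λ.card < ε / 2 * A.card * Λ.card :=
    mul_lt_mul_of_pos_right h4 hΛpos
  have h9 : (bd g D : ℝ) ≤ (bd (g : E ⧸ K) A : ℝ) * Λ.card + ∑ y ∈ A, (bd (c g y) Λ : ℝ) := by
    exact_mod_cast h2
  rw [hDcard]
  push_cast
  linarith

/-- **Central extensions of amenable groups are amenable.** -/
theorem isAmenable_of_central {E : Type*} [Group E] (K : Subgroup E) [K.Normal]
    (hK : K ≤ Subgroup.center E) (h : IsAmenable (E ⧸ K)) : IsAmenable E := by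
  refine isAmenable_of_ext K (isAmenable_of_comm K ?_) h
  intro a b
  apply Subtype.ext
  simpa using (Subgroup.mem_center_iff.1 (hK b.2) (a : E))

end Vale.Agent.P196.H697
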