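import Vale.Agent.P196.Cut.StmtB

/-!
# P196, cutting: refinement of cell systems (`StmtA`) and the inclusions (`StmtB`)
-/

noncomputable section

namespace Vale.Agent.P196.H697

open Equiv Vale.Agent.P196.S0 Vale.Agent.P196.Cut

theorem stmtA : StmtA := by
  intro N J Θ J' Θ' _ _ _ _ C C' φ off hlab htyp ι _ _ g hg
  classical
  have := Fintype.ofFinite J
  obtain ⟨ha, he⟩ := C.isIn_of_mem hg
  rw [C'.mem_G_iff]
  refine ⟨⟨?_, ?_, ?_⟩, ?_⟩
  · intro z hz
    cases h : C.lab z.1 with
    | none => exact ha.none z h
    | some j =>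
      have := (hlab _ _ h).1
      rw [hz] at this
      exact absurd this (by simp)
  · intro z j' hz
    cases h : C.lab z.1 with
    | none => rw [ha.none z h]; exact ⟨rfl, hz⟩
    | some j =>
      obtain ⟨h1, h2⟩ := hlab _ _ h
      obtain ⟨h3, h4⟩ := ha.cell z j h
      obtain ⟨h5, h6⟩ := hlab _ _ h4
      rw [h6, h3, ← h2]
      exact ⟨rfl, by rw [h5, ← h1, hz]⟩
  · intro z j' k hz ht
    cases h : C.lab z.1 with
    | none =>
      rw [ha.none z h]
      apply ha.none
      change C.lab (z.1 + N • k) = none
      rw [C.lab_add]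
      exact h
    | some j =>
      obtain ⟨h1, h2⟩ := hlab _ _ h
      have hj : j' = φ j := by
        rw [h1] at hz
        exact (Option.some.inj hz).symm
      subst hj
      apply ha.equi z j k h
      apply htyp
      rw [h2] at ht
      rw [← ht]
      congr 1
      abel
  · intro p j'
    have hdc : (Finset.univ.filter (fun j => φ j = j')).biUnion
        (fun j => C.cell ι (p - off j) j) ⊆ C'.cell ι p j' := by
      intro z hz
      obtain ⟨j, hj, hz⟩ := Finset.mem_biUnion.1 hz
      rw [Finset.mem_filter] at hj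
      rw [C.mem_cell] at hz
      obtain ⟨h1, h2⟩ := hlab _ _ hz.2
      rw [C'.mem_cell, h1, h2, hz.1, hj.2]
      exact ⟨by abel, rfl⟩
    have hinv : ∀ j ∈ Finset.univ.filter (fun j => φ j = j'),
        Inv (C.cell ι (p - off j) j) g := fun j _ => ha.inv_cell _ _
    rw [sgnOn_subset hdc (inv_biUnion hinv), sgnOn_biUnion _ _ _ hinv]
    · exact Finset.prod_eq_one fun j _ => he _ _
    · intro j _ j1 _ hne
      rw [Finset.disjoint_left]
      intro z hz hz1
      rw [C.mem_cell] at hz hz1
      rw [hz.2] at hz1
      exact hne (Option.some.inj hz1.2)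
    · intro z hz hnot
      cases h : C.lab z.1 with
      | none => exact ha.none z h
      | some j =>
        exfalso
        apply hnot
        obtain ⟨h1, h2⟩ := hlab _ _ h
        rw [C'.mem_cell, h1, h2] at hz
        refine Finset.mem_biUnion.2 ⟨j, ?_, ?_⟩
        · rw [Finset.mem_filter]
          exact ⟨Finset.mem_univ _, Option.some.inj hz.2⟩
        · rw [C.mem_cell]
          exact ⟨eq_sub_of_add_eq hz.1, h⟩

theorem stmtB : StmtB := stmtB_of stmtA

end Vale.Agent.P196.H697
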